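import Vale.Agent.P338.R3.H968.Cell

/-!
P338-D: arithmetic of the product of two cells by one product of numbers (slots of `T` bits, no
case distinction on signs).
-/

namespace Vale.Agent.P338.R3.H778

open Vale.Agent.P338.R3.H968
open Vale.Agent.P338.R2.H778 (bits val)

/-- The number with the signed digits `a j` in slots of `T` bits. -/
def pk (T n : ℕ) (a : ℕ → ℤ) : ℤ := ∑ j ∈ Finset.range n, a j * 2 ^ (T * j)

/-- Coefficients of the product. -/
def cv (a b : ℕ → ℤ) (k : ℕ) : ℤ := ∑ i ∈ Finset.range (k + 1), a i * b (k - i)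

theorem pk_succ (T n : ℕ) (a : ℕ → ℤ) : pk T (n + 1) a = pk T n a + a n * 2 ^ (T * n) := by
  simp [pk, Finset.sum_range_succ]

theorem pk_add (T n : ℕ) (a b : ℕ → ℤ) : pk T n (fun j => a j + b j) = pk T n a + pk T n b := by
  simp [pk, add_mul, Finset.sum_add_distrib]

theorem pk_sub (T n : ℕ) (a b : ℕ → ℤ) : pk T n (fun j => a j - b j) = pk T n a - pk T n b := by
  simp [pk, sub_mul, Finset.sum_sub_distrib]

theorem pk_congr (T n : ℕ) {a b : ℕ → ℤ} (h : ∀ j < n, a j = b j) : pk T n a = pk T n b :=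
  Finset.sum_congr rfl fun j hj => by rw [h j (Finset.mem_range.1 hj)]

theorem pk_mul (T n : ℕ) (a b : ℕ → ℤ) :
    (pk T n a * pk T n b) ≡ pk T n (cv a b) [ZMOD 2 ^ (T * n)] := by
  have h1 : pk T n a * pk T n b
      = ∑ p ∈ (Finset.range n ×ˢ Finset.range n), a p.1 * b p.2 * 2 ^ (T * (p.1 + p.2)) := by
    rw [pk, pk, Finset.sum_mul_sum, Finset.sum_product]
    refine Finset.sum_congr rfl fun i _ => Finset.sum_congr rfl fun j _ => ?_
    rw [mul_add, pow_add]; ring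
  have h2 : pk T n (cv a b)
      = ∑ p ∈ (Finset.range n ×ˢ Finset.range n).filter (fun p => p.1 + p.2 < n),
          a p.1 * b p.2 * 2 ^ (T * (p.1 + p.2)) := by
    have h3 : ∀ k ∈ Finset.range n, cv a b k * 2 ^ (T * k)
        = ∑ p ∈ ((Finset.range n ×ˢ Finset.range n).filter (fun p => p.1 + p.2 < n)).filter
            (fun p => p.1 + p.2 = k), a p.1 * b p.2 * 2 ^ (T * (p.1 + p.2)) := by
      intro k hk
      rw [Finset.mem_range] at hk
      rw [cv, Finset.sum_mul]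
      symm
      refine Finset.sum_nbij' (fun p => p.1) (fun i => (i, k - i)) ?_ ?_ ?_ ?_ ?_
      · intro p hp
        simp only [Finset.mem_filter, Finset.mem_product, Finset.mem_range] at hp ⊢
        omega
      · intro i hi
        simp only [Finset.mem_filter, Finset.mem_product, Finset.mem_range] at hi ⊢
        omega
      · intro p hp
        simp only [Finset.mem_filter, Finset.mem_product, Finset.mem_range] at hp
        ext
        · rfl
        · simp only; omega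
      · intro i hi; rfl
      · intro p hp
        simp only [Finset.mem_filter, Finset.mem_product, Finset.mem_range] at hp
        have e1 : k - p.1 = p.2 := by omega
        rw [e1, hp.2]
    rw [pk, Finset.sum_congr rfl h3]
    refine Finset.sum_fiberwise_of_maps_to ?_ _
    intro p hp
    simp only [Finset.mem_filter, Finset.mem_product, Finset.mem_range] at hp ⊢
    exact hp.2
  rw [h1, h2, ← Finset.sum_filter_add_sum_filter_not _ (fun p : ℕ × ℕ => p.1 + p.2 < n)]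
  have h4 : (2 : ℤ) ^ (T * n) ∣
      ∑ p ∈ (Finset.range n ×ˢ Finset.range n).filter (fun p => ¬ p.1 + p.2 < n),
        a p.1 * b p.2 * 2 ^ (T * (p.1 + p.2)) := by
    refine Finset.dvd_sum fun p hp => ?_
    simp only [Finset.mem_filter, Finset.mem_product, Finset.mem_range, not_lt] at hp
    exact Dvd.dvd.mul_left (pow_dvd_pow 2 (Nat.mul_le_mul_left T hp.2)) _
  have h5 := (Int.emod_emod_of_dvd 0 (dvd_refl ((2 : ℤ) ^ (T * n))))
  exact (Int.modEq_iff_dvd.2 (by simpa using h4)).symm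

/-- Digits of a number with nonnegative small slots. -/
theorem slot_eq (T n : ℕ) (u : ℕ → ℕ) (hu : ∀ j < n, u j < 2 ^ T) {k : ℕ} (hk : k < n) :
    (∑ j ∈ Finset.range n, u j * 2 ^ (T * j)) / 2 ^ (T * k) % 2 ^ T = u k := by
  induction n generalizing k u with
  | zero => omega
  | succ n ih =>
    rw [Finset.sum_range_succ']
    have e0 : (∑ j ∈ Finset.range n, u (j + 1) * 2 ^ (T * (j + 1))) + u 0 * 2 ^ (T * 0)
        = u 0 + 2 ^ T * ∑ j ∈ Finset.range n, u (j + 1) * 2 ^ (T * j) := by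
      rw [Finset.mul_sum, mul_zero, pow_zero, mul_one, add_comm]
      congr 1
      refine Finset.sum_congr rfl fun j _ => ?_
      rw [mul_add, pow_add, mul_one]; ring
    rw [e0]
    cases k with
    | zero =>
      rw [mul_zero, pow_zero, Nat.div_one, Nat.add_mul_mod_self_left,
        Nat.mod_eq_of_lt (hu 0 (by omega))]
    | succ k =>
      have e1 : 2 ^ (T * (k + 1)) = 2 ^ T * 2 ^ (T * k) := by rw [← pow_add]; congr 1; ring
      rw [e1, ← Nat.div_div_eq_div_mul, Nat.add_mul_div_left _ _ (by positivity),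
        Nat.div_eq_of_lt (hu 0 (by omega)), zero_add]
      exact ih (fun j => u (j + 1)) (fun j hj => hu (j + 1) (by omega)) (by omega)

theorem slot_lt (T n : ℕ) (u : ℕ → ℕ) (hu : ∀ j < n, u j < 2 ^ T) :
    ∑ j ∈ Finset.range n, u j * 2 ^ (T * j) < 2 ^ (T * n) := by
  induction n with
  | zero => simp
  | succ n ih =>
    rw [Finset.sum_range_succ]
    have h1 := ih fun j hj => hu j (by omega)
    have h2 := hu n (by omega)
    have h3 : 2 ^ (T * (n + 1)) = 2 ^ T * 2 ^ (T * n) := by rw [← pow_add]; congr 1; ring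
    rw [h3]
    have h4 : (u n + 1) * 2 ^ (T * n) ≤ 2 ^ T * 2 ^ (T * n) := Nat.mul_le_mul_right _ h2
    have h5 : (u n + 1) * 2 ^ (T * n) = u n * 2 ^ (T * n) + 2 ^ (T * n) := by ring
    omega

/-- The slots of a number congruent to a packed number with bias. -/
theorem slot_of_modEq {T n N : ℕ} {c : ℕ → ℤ} (hT : 1 ≤ T)
    (hc : ∀ k < n, |c k| < 2 ^ (T - 1)) (hN : N < 2 ^ (T * n))
    (h : (N : ℤ) ≡ pk T n c + pk T n (fun _ => 2 ^ (T - 1)) [ZMOD 2 ^ (T * n)]) {k : ℕ}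
    (hk : k < n) : ((N / 2 ^ (T * k) % 2 ^ T : ℕ) : ℤ) = c k + 2 ^ (T - 1) := by
  have h2T : (2 : ℤ) ^ T = 2 ^ (T - 1) + 2 ^ (T - 1) := by
    conv_lhs => rw [show T = (T - 1) + 1 by omega, pow_succ]
    ring
  let u : ℕ → ℕ := fun j => (c j + 2 ^ (T - 1)).toNat
  have hu0 : ∀ j < n, 0 ≤ c j + 2 ^ (T - 1) := fun j hj => by
    have := (abs_lt.1 (hc j hj)).1; omega
  have hu1 : ∀ j < n, (u j : ℤ) = c j + 2 ^ (T - 1) := fun j hj => Int.toNat_of_nonneg (hu0 j hj)
  have hu : ∀ j < n, u j < 2 ^ T := fun j hj => by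
    have h1 := (abs_lt.1 (hc j hj)).2
    have h2 := hu1 j hj
    have h3 : (u j : ℤ) < ((2 ^ T : ℕ) : ℤ) := by push_cast; omega
    exact_mod_cast h3
  have hS : ((∑ j ∈ Finset.range n, u j * 2 ^ (T * j) : ℕ) : ℤ)
      = pk T n c + pk T n (fun _ => 2 ^ (T - 1)) := by
    rw [← pk_add, pk]
    push_cast
    exact Finset.sum_congr rfl fun j hj => by rw [hu1 j (Finset.mem_range.1 hj)]
  have hlt := slot_lt T n u hu
  have hNe : N = ∑ j ∈ Finset.range n, u j * 2 ^ (T * j) := by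
    rw [← hS] at h
    have h6 : (N : ℤ) ≡ ((∑ j ∈ Finset.range n, u j * 2 ^ (T * j) : ℕ) : ℤ)
        [ZMOD ((2 ^ (T * n) : ℕ) : ℤ)] := by
      push_cast at h ⊢; exact h
    have h7 := (Int.natCast_modEq_iff.1 h6)
    rw [Nat.ModEq, Nat.mod_eq_of_lt hN, Nat.mod_eq_of_lt hlt] at h7
    exact h7
  rw [hNe, slot_eq T n u hu hk, hu1 k hk]

theorem abs_sg_le (b : ℕ) (z : ℤ) (hb : 1 ≤ b) : |sg b z| ≤ 2 ^ (b - 1) := by
  have h2 : (2 : ℤ) ^ b = 2 ^ (b - 1) + 2 ^ (b - 1) := by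
    conv_lhs => rw [show b = (b - 1) + 1 by omega, pow_succ]
    ring
  have h1 := @Int.bmod_lt z (2 ^ b) (by positivity)
  have h3 := @Int.le_bmod z (2 ^ b) (by positivity)
  push_cast at h1 h3
  rw [sg, abs_le]
  constructor <;> omega

theorem abs_cv_le {b k : ℕ} (x y : ℕ → ℤ) (hb : 1 ≤ b) :
    |cv (fun j => sg b (x j)) (fun j => sg b (y j)) k| ≤ (k + 1 : ℕ) * 2 ^ (2 * b - 2) := by
  refine (Finset.abs_sum_le_sum_abs _ _).trans ?_
  have h1 : ∀ i ∈ Finset.range (k + 1), |sg b (x i) * sg b (y (k - i))| ≤ 2 ^ (2 * b - 2) := by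
    intro i _
    rw [abs_mul]
    refine (mul_le_mul (abs_sg_le b _ hb) (abs_sg_le b _ hb) (abs_nonneg _)
      (by positivity)).trans (le_of_eq ?_)
    rw [← pow_add]; congr 1; omega
  refine (Finset.sum_le_sum h1).trans (le_of_eq ?_)
  rw [Finset.sum_const, Finset.card_range, nsmul_eq_mul]

/-- The words of the product of two cells as bits of one number. -/
theorem cMulp_bits {P : CPar} (hP : P.Ok) {T N : ℕ} (hT : 3 * P.b ≤ T) (x y : Cell)
    (hN : N < 2 ^ (T * P.nw))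
    (h : (N : ℤ) ≡ pk T P.nw (fun j => sg P.b (x j)) * pk T P.nw (fun j => sg P.b (y j))
      + pk T P.nw (fun _ => 2 ^ (T - 1)) [ZMOD 2 ^ (T * P.nw)]) {k : ℕ} (hk : k < P.nw) :
    wz P.b (cMulp P x y k) = bits P.b (N / 2 ^ (T * k) % 2 ^ T / 2 ^ P.s % 2 ^ P.b) := by
  have hs := hP.hs
  have hb := hP.hb
  have hn := hP.hn
  have hw := hP.hw
  have h1 : (N : ℤ) ≡ pk T P.nw (cv (fun j => sg P.b (x j)) (fun j => sg P.b (y j)))
      + pk T P.nw (fun _ => 2 ^ (T - 1)) [ZMOD 2 ^ (T * P.nw)] :=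
    h.trans ((pk_mul T P.nw _ _).add_right _)
  have hc : ∀ k < P.nw, |cv (fun j => sg P.b (x j)) (fun j => sg P.b (y j)) k| < 2 ^ (T - 1) := by
    intro k hk
    refine (abs_cv_le x y (by omega)).trans_lt ?_
    have h2 : ((k + 1 : ℕ) : ℤ) ≤ 2 ^ P.b := by
      have : k + 1 ≤ 2 ^ P.b := by omega
      exact_mod_cast this
    calc ((k + 1 : ℕ) : ℤ) * 2 ^ (2 * P.b - 2) ≤ 2 ^ P.b * 2 ^ (2 * P.b - 2) :=
          mul_le_mul_of_nonneg_right h2 (by positivity)
      _ = 2 ^ (P.b + (2 * P.b - 2)) := by rw [pow_add]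
      _ < 2 ^ (T - 1) := pow_lt_pow_right₀ (by norm_num) (by omega)
  have h3 := slot_of_modEq (by omega) hc hN h1 hk
  have h4 : ((N / 2 ^ (T * k) % 2 ^ T / 2 ^ P.s % 2 ^ P.b : ℕ) : ℤ)
      = cMulp P x y k % 2 ^ P.b := by
    push_cast
    have h3' : ((N : ℤ) / 2 ^ (T * k) % 2 ^ T)
        = cv (fun j => sg P.b (x j)) (fun j => sg P.b (y j)) k + 2 ^ (T - 1) := by
      exact_mod_cast h3
    rw [h3']
    have e1 : (2 : ℤ) ^ (T - 1) = 2 ^ (T - 1 - P.s - P.b) * 2 ^ P.b * 2 ^ P.s := by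
      rw [← pow_add, ← pow_add]; congr 1; omega
    rw [e1, Int.add_mul_ediv_right _ _ (by positivity), Int.add_mul_emod_self_right]
    rfl
  rw [wz, ← h4, Int.toNat_natCast]

end Vale.Agent.P338.R3.H778
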