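import Vale.Agent.P338.R3.H778.MulpA
import Vale.Agent.P338.R3.H525.Rip

/-!
P338-D: the words of the product of two cells: packing, patterns, cutting, as lists of bits.
-/

namespace Vale.Agent.P338.R3.H778

open Vale.Agent.P338.R3.H968
open Vale.Agent.P338.R3.H525
open Vale.Agent.P338.R2.H778 (bits val length_bits val_bits val_append val_cons val_inj val_lt bits_zero
  bits_mod bits_add val_bits_of_lt bits_val)

/-- Blocks of `T` bits, the block number `n - 1` first. -/
def blk (T n : ℕ) (v : ℕ → ℕ) : List Bool := (List.range n).flatMap fun i => bits T (v (n - 1 - i))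

theorem blk_succ (T n : ℕ) (v : ℕ → ℕ) : blk T (n + 1) v = bits T (v n) ++ blk T n v := by
  rw [blk, List.range_succ_eq_map, List.flatMap_cons, blk, List.flatMap_map]
  congr 1
  refine List.flatMap_congr fun i _ => ?_
  congr 2
  omega

theorem blk_zero (T : ℕ) (v : ℕ → ℕ) : blk T 0 v = [] := rfl

theorem wz_nat' (b n : ℕ) : wz b (n : ℤ) = bits b n := by
  rw [wz, ← bits_mod b n]
  have : ((n : ℤ) % 2 ^ b) = ((n % 2 ^ b : ℕ) : ℤ) := by push_cast; rfl
  rw [this, Int.toNat_natCast]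

theorem wz_congr' {b : ℕ} {x y : ℤ} (h : x ≡ y [ZMOD 2 ^ b]) : wz b x = wz b y := by
  rw [wz, wz]
  have : x % 2 ^ b = y % 2 ^ b := h
  rw [this]

theorem sum_eq_pk (T n : ℕ) (v : ℕ → ℕ) :
    ((∑ j ∈ Finset.range n, v j * 2 ^ (T * j) : ℕ) : ℤ) = pk T n (fun j => (v j : ℤ)) := by
  rw [pk]; push_cast; rfl

theorem blk_eq (T n : ℕ) (v : ℕ → ℕ) (hv : ∀ j < n, v j < 2 ^ T) :
    blk T n v = wz (T * n) (pk T n (fun j => (v j : ℤ))) := by
  rw [← sum_eq_pk, wz_nat']
  induction n with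
  | zero => simp [blk_zero, bits]
  | succ n ih =>
    have h1 := slot_lt T n v (fun j hj => hv j (by omega))
    rw [blk_succ, ih (fun j hj => hv j (by omega)), Finset.sum_range_succ,
      show T * (n + 1) = T + T * n by ring, add_comm (∑ j ∈ Finset.range n, _)]
    exact (Vale.Agent.P338.R2.H778.bits_add' T (T * n) (v n) _ h1).symm

theorem bits_eq_blk (T n N : ℕ) : bits (T * n) N = blk T n (fun k => N / 2 ^ (T * k) % 2 ^ T) := by
  induction n with
  | zero => simp [blk_zero, bits]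
  | succ n ih =>
    rw [blk_succ, show T * (n + 1) = T + T * n by ring, bits_add, ih, ← bits_mod T]

/-- The first bit of a word. -/
theorem bits_cons (b w : ℕ) : bits (b + 1) w = decide (w / 2 ^ b % 2 = 1) :: bits b w := by
  rw [add_comm, bits_add]
  congr 1

theorem wz_ne_nil {b : ℕ} (hb : 1 ≤ b) (z : ℤ) : ∃ c l, wz b z = c :: l := by
  obtain ⟨k, rfl⟩ : ∃ k, b = k + 1 := ⟨b - 1, by omega⟩
  exact ⟨_, _, bits_cons _ _⟩

theorem sg_cases {b : ℕ} (hb : 1 ≤ b) (z : ℤ) :
    sg b z = if (z % 2 ^ b).toNat < 2 ^ (b - 1) then ((z % 2 ^ b).toNat : ℤ)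
      else ((z % 2 ^ b).toNat : ℤ) - 2 ^ b := by
  have hpos : (0 : ℤ) < 2 ^ b := by positivity
  have h0 : 0 ≤ z % 2 ^ b := Int.emod_nonneg _ hpos.ne'
  have h2 : (2 : ℤ) ^ b = 2 ^ (b - 1) + 2 ^ (b - 1) := by
    conv_lhs => rw [show b = (b - 1) + 1 by omega, pow_succ]
    ring
  obtain ⟨w, hw⟩ := Int.eq_ofNat_of_zero_le h0
  have e1 : sg b z = if z % ((2 ^ b : ℕ) : ℤ) < (((2 ^ b : ℕ) : ℤ) + 1) / 2 then
      z % ((2 ^ b : ℕ) : ℤ) else z % ((2 ^ b : ℕ) : ℤ) - ((2 ^ b : ℕ) : ℤ) := Int.bmod_def z (2 ^ b)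
  push_cast at e1
  rw [e1, hw, Int.toNat_natCast]
  have e2 : ((2 : ℤ) ^ b + 1) / 2 = 2 ^ (b - 1) := by omega
  rw [e2]
  have e3 : ((w : ℤ) < 2 ^ (b - 1)) ↔ w < 2 ^ (b - 1) := by exact_mod_cast Iff.rfl
  simp only [e3]

/-- The digit `sg z + 2 ^ b` in `b + 1` bits: the negated sign bit, then the word. -/
theorem bits_bias {b : ℕ} (hb : 1 ≤ b) (z : ℤ) {c : Bool} {l : List Bool} (h : wz b z = c :: l) :
    bits (b + 1) (sg b z + 2 ^ b).toNat = (!c) :: wz b z := by
  have hpos : (0 : ℤ) < 2 ^ b := by positivity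
  have h0 : 0 ≤ z % 2 ^ b := Int.emod_nonneg _ hpos.ne'
  have h1 : z % 2 ^ b < 2 ^ b := Int.emod_lt_of_pos _ hpos
  obtain ⟨w, hw⟩ := Int.eq_ofNat_of_zero_le h0
  have hwb : w < 2 ^ b := by rw [hw] at h1; exact_mod_cast h1
  have h2 : 2 ^ b = 2 ^ (b - 1) + 2 ^ (b - 1) := by
    conv_lhs => rw [show b = (b - 1) + 1 by omega, pow_succ]
    ring
  have e0 : wz b z = bits b w := by rw [wz, hw, Int.toNat_natCast]
  have ec : c = decide (2 ^ (b - 1) ≤ w) := by
    obtain ⟨k, rfl⟩ : ∃ k, b = k + 1 := ⟨b - 1, by omega⟩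
    rw [e0, bits_cons] at h
    have h3 := (List.cons.inj h).1
    rw [← h3, decide_eq_decide]
    have h4 : w / 2 ^ k < 2 := by
      rw [Nat.div_lt_iff_lt_mul (by positivity)]
      rw [pow_succ] at hwb; omega
    rw [Nat.mod_eq_of_lt h4]
    simp only [Nat.add_sub_cancel]
    constructor
    · intro h5
      by_contra h6
      rw [Nat.div_eq_of_lt (by omega)] at h5
      omega
    · intro h5
      have h6 : 1 ≤ w / 2 ^ k := by
        rw [Nat.le_div_iff_mul_le (by positivity)]; omega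
      omega
  rw [e0, bits_cons, sg_cases hb, hw, Int.toNat_natCast]
  by_cases hc : w < 2 ^ (b - 1)
  · rw [if_pos hc]
    have e1 : ((w : ℤ) + 2 ^ b).toNat = w + 2 ^ b := by
      have : (w : ℤ) + 2 ^ b = ((w + 2 ^ b : ℕ) : ℤ) := by push_cast; rfl
      rw [this, Int.toNat_natCast]
    rw [e1]
    congr 1
    · rw [ec, Nat.add_div_right _ (by positivity), Nat.div_eq_of_lt hwb]
      simp only [decide_not.symm]
      simp
      omega
    · rw [← bits_mod b (w + 2 ^ b), Nat.add_mod_right, bits_mod]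
  · rw [if_neg hc]
    have e1 : ((w : ℤ) - 2 ^ b + 2 ^ b).toNat = w := by
      rw [sub_add_cancel, Int.toNat_natCast]
    rw [e1]
    congr 1
    rw [ec, Nat.div_eq_of_lt hwb]
    simp
    omega

/-- The digits `sg z + 2 ^ b`. -/
def ub (b : ℕ) (x : Cell) (j : ℕ) : ℕ := (sg b (x j) + 2 ^ b).toNat

theorem ub_eq {b : ℕ} (hb : 1 ≤ b) (x : Cell) (j : ℕ) : ((ub b x j : ℕ) : ℤ) = sg b (x j) + 2 ^ b := by
  refine Int.toNat_of_nonneg ?_
  have h1 := (abs_le.1 (abs_sg_le b (x j) hb)).1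
  have h2 : (2 : ℤ) ^ (b - 1) ≤ 2 ^ b := pow_le_pow_right₀ (by norm_num) (by omega)
  linarith

theorem ub_lt {b : ℕ} (hb : 1 ≤ b) (x : Cell) (j : ℕ) : ub b x j < 2 ^ (b + 1) := by
  have h1 := (abs_le.1 (abs_sg_le b (x j) hb)).2
  have h2 : (2 : ℤ) ^ (b - 1) + 2 ^ (b - 1) = 2 ^ b := by
    conv_rhs => rw [show b = (b - 1) + 1 by omega, pow_succ]
    ring
  have h3 := ub_eq hb x j
  have h4 : (0 : ℤ) < 2 ^ (b - 1) := by positivity
  have h5 : ((ub b x j : ℕ) : ℤ) < ((2 ^ (b + 1) : ℕ) : ℤ) := by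
    rw [h3]; push_cast; rw [pow_succ]; linarith
  exact_mod_cast h5

/-- A packed word. -/
def pkW (b : ℕ) (z : ℤ) : List Bool :=
  List.replicate (2 * b) false ++ ((!((wz b z).head?.getD false)) :: wz b z)

theorem bits_small (k w v : ℕ) (hv : v < 2 ^ w) : bits (k + w) v = List.replicate k false ++ bits w v := by
  rw [bits_add, Nat.div_eq_of_lt hv, bits_zero]

theorem pkW_eq {b : ℕ} (hb : 1 ≤ b) (x : Cell) (j : ℕ) :
    pkW b (x j) = bits (3 * b + 1) (ub b x j) := by
  obtain ⟨c, l, h⟩ := wz_ne_nil hb (x j)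
  rw [show 3 * b + 1 = 2 * b + (b + 1) by ring, bits_small _ _ _ (ub_lt hb x j), ub,
    bits_bias hb _ h, pkW, h]
  rfl

/-- The packed cell. -/
theorem flatMap_pkW {b : ℕ} (hb : 1 ≤ b) (n : ℕ) (x : Cell) :
    ((List.range n).flatMap fun i => pkW b (x (n - 1 - i))) =
      wz ((3 * b + 1) * n) (pk (3 * b + 1) n fun j => sg b (x j) + 2 ^ b) := by
  have h1 : ((List.range n).flatMap fun i => pkW b (x (n - 1 - i))) =
      blk (3 * b + 1) n (ub b x) := by
    refine List.flatMap_congr fun i _ => ?_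
    rw [pkW_eq hb]
  rw [h1, blk_eq _ _ _ fun j _ => (ub_lt hb x j).trans_le
    (Nat.pow_le_pow_right (by norm_num) (by omega))]
  congr 1
  exact pk_congr _ _ fun j _ => ub_eq hb x j

/-- The pattern `2 ^ b` in every slot. -/
def pB (b : ℕ) : List Bool := List.replicate (2 * b) false ++ (true :: List.replicate b false)

/-- The pattern `2 ^ (3 b)` in every slot. -/
def pG (b : ℕ) : List Bool := true :: (List.replicate b false ++ List.replicate (2 * b) false)

theorem bits_pow (k b : ℕ) : bits (k + (b + 1)) (2 ^ b) =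
    List.replicate k false ++ (true :: List.replicate b false) := by
  rw [bits_small _ _ _ (Nat.pow_lt_pow_right (by norm_num) (by omega)), bits_cons]
  congr 2
  · simp
  · rw [← bits_mod, Nat.mod_self, bits_zero]

theorem flatMap_const (T n : ℕ) (l : List Bool) (v : ℕ) (hv : v < 2 ^ T) (h : bits T v = l) :
    ((List.range n).flatMap fun _ => l) = wz (T * n) (pk T n fun _ => (v : ℤ)) := by
  have h1 : ((List.range n).flatMap fun _ => l) = blk T n fun _ => v :=
    List.flatMap_congr fun i _ => h.symm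
  rw [h1, blk_eq _ _ _ fun j _ => hv]

theorem flatMap_pB (b n : ℕ) : ((List.range n).flatMap fun _ => pB b) =
    wz ((3 * b + 1) * n) (pk (3 * b + 1) n fun _ => 2 ^ b) := by
  have h := flatMap_const (3 * b + 1) n (pB b) (2 ^ b)
    (Nat.pow_lt_pow_right (by norm_num) (by omega))
    (by rw [show 3 * b + 1 = 2 * b + (b + 1) by ring, bits_pow]; rfl)
  rw [h]
  congr 1

theorem flatMap_pG (b n : ℕ) : ((List.range n).flatMap fun _ => pG b) =
    wz ((3 * b + 1) * n) (pk (3 * b + 1) n fun _ => 2 ^ (3 * b + 1 - 1)) := by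
  have h := flatMap_const (3 * b + 1) n (pG b) (2 ^ (3 * b))
    (Nat.pow_lt_pow_right (by norm_num) (by omega))
    (by
      rw [show 3 * b + 1 = 0 + (3 * b + 1) by ring, bits_pow, pG, ← List.replicate_add,
        show b + 2 * b = 3 * b by ring]
      rfl)
  rw [h]
  congr 1

/-- The part of a slot that becomes a word. -/
def cut (b s : ℕ) (l : List Bool) : List Bool := (l.drop (2 * b - s + 1)).take b

theorem cut_bits {b s : ℕ} (hs : s ≤ b) (v : ℕ) :
    cut b s (bits (3 * b + 1) v) = bits b (v / 2 ^ s % 2 ^ b) := by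
  have e : 3 * b + 1 = (2 * b - s + 1) + (b + s) := by omega
  rw [e, bits_add, cut, List.drop_left' (by simp), bits_add, List.take_left' (by simp), bits_mod]

end Vale.Agent.P338.R3.H778
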